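import Vale.Agent.P181.H261.Sup

/-!
P181, complement of T6, leaf (R1): rigidity of the supports.
-/

set_option autoImplicit false

namespace Vale.Agent.P181.H355

open Vale.Agent.P181.H261

/-- The triangles (circuits with three letters). -/
def T (i : ℕ) : Finset ℕ := {2 * i, 2 * i + 2, 2 * i + 3}

theorem mem_T {i k : ℕ} : k ∈ T i ↔ k = 2 * i ∨ k = 2 * i + 2 ∨ k = 2 * i + 3 := by
  simp [T]

theorem card_T (i : ℕ) : (T i).card = 3 := by
  unfold T
  rw [Finset.card_insert_of_notMem, Finset.card_insert_of_notMem, Finset.card_singleton]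
  · simp
  · simp

theorem sup_one (N : ℕ) : sup N 1 = {0, 2, N - 1} := by simp [sup]

theorem sup_even {N k : ℕ} (h : k % 2 = 0) : sup N k = {k / 2} := by
  have h1 : k ≠ 1 := by omega
  simp [sup, h, h1]

theorem sup_odd {N k : ℕ} (h : k % 2 = 1) (h1 : k ≠ 1) : sup N k = {k / 2 - 1, k / 2} := by
  simp [sup, h, h1]

theorem dep_T (N i : ℕ) : ((T i).biUnion (sup N)).card < (T i).card := by
  rw [card_T]
  have h : (T i).biUnion (sup N) ⊆ {i, i + 1} := by
    intro u hu
    rw [Finset.mem_biUnion] at hu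
    obtain ⟨k, hk, hu⟩ := hu
    rw [mem_T] at hk
    rcases hk with rfl | rfl | rfl
    · rw [sup_even (by omega), Finset.mem_singleton] at hu
      simp only [Finset.mem_insert, Finset.mem_singleton]; omega
    · rw [sup_even (by omega), Finset.mem_singleton] at hu
      simp only [Finset.mem_insert, Finset.mem_singleton]; omega
    · rw [sup_odd (by omega) (by omega)] at hu
      simp only [Finset.mem_insert, Finset.mem_singleton] at hu ⊢; omega
  exact lt_of_le_of_lt ((Finset.card_le_card h).trans Finset.card_le_two) (by norm_num)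

/-- Every dependent set with at most three letters is a triangle. -/
theorem dep3 {N : ℕ} (hN : 6 ≤ N) {D : Finset ℕ} (hb : ∀ k ∈ D, k < 2 * N + 1)
    (hc : D.card ≤ 3) (hd : (D.biUnion (sup N)).card < D.card) :
    ∃ i, i + 1 < N ∧ D = T i := by
  set U := D.biUnion (sup N) with hU
  have hsub : ∀ k ∈ D, ∀ u ∈ sup N k, u ∈ U := fun k hk u hu =>
    Finset.mem_biUnion.2 ⟨k, hk, hu⟩
  have hU2 : U.card ≤ 2 := by omega
  obtain ⟨x, y, hxy, hUxy⟩ : ∃ x y : ℕ, x ≤ y ∧ U ⊆ {x, y} := by
    have h012 : U.card = 0 ∨ U.card = 1 ∨ U.card = 2 := by omega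
    rcases h012 with h | h | h
    · rw [Finset.card_eq_zero] at h
      exact ⟨0, 0, le_rfl, by rw [h]; exact Finset.empty_subset _⟩
    · obtain ⟨x, hx⟩ := Finset.card_eq_one.1 h
      exact ⟨x, x, le_rfl, by rw [hx]; simp⟩
    · obtain ⟨x, y, -, hx⟩ := Finset.card_eq_two.1 h
      rcases le_total x y with h1 | h1
      · exact ⟨x, y, h1, by rw [hx]⟩
      · exact ⟨y, x, h1, by rw [hx, Finset.pair_comm]⟩
  have hmem : ∀ k ∈ D, ∀ u ∈ sup N k, u = x ∨ u = y := fun k hk u hu => by
    have h1 := hUxy (hsub k hk u hu)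
    simpa using h1
  have hk : ∀ k ∈ D, k = 2 * x ∨ k = 2 * y ∨ (k = 2 * x + 3 ∧ y = x + 1) := by
    intro k hk
    have h1 := hmem k hk
    by_cases hk1 : k = 1
    · subst hk1
      rw [sup_one] at h1
      have a1 := h1 0 (by simp)
      have a2 := h1 2 (by simp)
      have a3 := h1 (N - 1) (by simp)
      omega
    · rcases Nat.mod_two_eq_zero_or_one k with h0 | h0
      · rw [sup_even h0] at h1
        have a1 := h1 (k / 2) (by simp)
        omega
      · rw [sup_odd h0 hk1] at h1
        have a1 := h1 (k / 2 - 1) (by simp)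
        have a2 := h1 (k / 2) (by simp)
        omega
  by_cases hy : y = x + 1
  · subst hy
    have h1 : D ⊆ T x := by
      intro k hk'
      rw [mem_T]
      have := hk k hk'
      omega
    have h3 : 3 ≤ D.card := by
      -- `U` has at least ... elements
      by_contra hlt
      have hD2 : D.card ≤ 2 := by omega
      -- then `U.card ≤ 1`
      have hU1 : U.card ≤ 1 := by omega
      have hU1' : ∀ u ∈ U, ∀ v ∈ U, u = v := fun u hu v hv =>
        Finset.card_le_one.1 hU1 u hu v hv
      have hD1 : D.card ≤ 1 := by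
        rw [Finset.card_le_one]
        intro k hk' l hl'
        have a1 := hk k hk'
        have a2 := hk l hl'
        have b1 : k / 2 ∈ U ∧ (k % 2 = 1 → k / 2 - 1 ∈ U) := by
          rcases Nat.mod_two_eq_zero_or_one k with h0 | h0
          · exact ⟨hsub k hk' _ (by rw [sup_even h0]; simp), fun h => by omega⟩
          · have hk1 : k ≠ 1 := by omega
            exact ⟨hsub k hk' _ (by rw [sup_odd h0 hk1]; simp),
              fun _ => hsub k hk' _ (by rw [sup_odd h0 hk1]; simp)⟩
        have b2 : l / 2 ∈ U ∧ (l % 2 = 1 → l / 2 - 1 ∈ U) := by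
          rcases Nat.mod_two_eq_zero_or_one l with h0 | h0
          · exact ⟨hsub l hl' _ (by rw [sup_even h0]; simp), fun h => by omega⟩
          · have hk1 : l ≠ 1 := by omega
            exact ⟨hsub l hl' _ (by rw [sup_odd h0 hk1]; simp),
              fun _ => hsub l hl' _ (by rw [sup_odd h0 hk1]; simp)⟩
        have c1 := hU1' _ b1.1 _ b2.1
        rcases Nat.mod_two_eq_zero_or_one k with h0 | h0
        · rcases Nat.mod_two_eq_zero_or_one l with h0' | h0'
          · omega
          · have c2 := hU1' _ b2.1 _ (b2.2 h0')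
            omega
        · have c2 := hU1' _ b1.1 _ (b1.2 h0)
          omega
      have hD0 : U.card = 0 ∧ D.card = 1 := by omega
      obtain ⟨k, hk'⟩ := Finset.card_eq_one.1 hD0.2
      have hkD : k ∈ D := by rw [hk']; simp
      have hne : (sup N k).Nonempty := by
        rcases Nat.mod_two_eq_zero_or_one k with h0 | h0
        · rw [sup_even h0]; simp
        · by_cases hk1 : k = 1
          · rw [hk1, sup_one]; simp
          · rw [sup_odd h0 hk1]; simp
      obtain ⟨u, hu⟩ := hne
      have h5 := hsub k hkD u hu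
      rw [Finset.card_eq_zero] at hD0
      rw [hD0.1] at h5
      simp at h5
    have h2 : D = T x := Finset.eq_of_subset_of_card_le h1 (by rw [card_T]; exact h3)
    refine ⟨x, ?_, h2⟩
    have h4 : 2 * x + 3 ∈ D := by rw [h2, mem_T]; omega
    have := hb _ h4
    omega
  · exfalso
    have h1 : D ⊆ {2 * x, 2 * y} := by
      intro k hk'
      have := hk k hk'
      simp only [Finset.mem_insert, Finset.mem_singleton]
      omega
    -- `k ↦ k / 2` injects `D` into `U`
    have h2 : D.card ≤ U.card := by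
      refine Finset.card_le_card_of_injOn (fun k => k / 2) (fun k hk' => ?_) ?_
      · have := h1 hk'
        simp only [Finset.mem_insert, Finset.mem_singleton] at this
        exact hsub k hk' _ (by rw [sup_even (by omega)]; simp)
      · intro k hk' l hl' hkl
        have a1 := h1 hk'
        have a2 := h1 hl'
        simp only [Finset.mem_insert, Finset.mem_singleton] at a1 a2
        simp only at hkl
        omega
    omega

/-- The dependent sets with four letters which contain no triangle. -/
theorem dep4 {N : ℕ} (hN : 6 ≤ N) {D : Finset ℕ} (hb : ∀ k ∈ D, k < 2 * N + 1)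
    (hc : D.card = 4) (hd : (D.biUnion (sup N)).card < D.card)
    (hT : ∀ i, i + 1 < N → ¬ T i ⊆ D) :
    2 * N ∉ D ∧ (1 ∈ D → D = {0, 1, 4, 2 * N - 2}) := by
  set U := D.biUnion (sup N) with hU
  have hsub : ∀ k ∈ D, ∀ u ∈ sup N k, u ∈ U := fun k hk u hu =>
    Finset.mem_biUnion.2 ⟨k, hk, hu⟩
  constructor
  · intro h2N
    have hNU : N ∈ U := hsub _ h2N _ (by rw [sup_even (by omega)]; simp)
    have h1 : (D.erase (2 * N)).biUnion (sup N) ⊆ U.erase N := by
      intro u hu
      rw [Finset.mem_biUnion] at hu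
      obtain ⟨k, hk, hu⟩ := hu
      rw [Finset.mem_erase] at hk
      rw [Finset.mem_erase]
      refine ⟨?_, hsub k hk.2 u hu⟩
      have hkb := hb k hk.2
      by_cases hk1 : k = 1
      · subst hk1
        rw [sup_one] at hu
        simp only [Finset.mem_insert, Finset.mem_singleton] at hu
        omega
      · rcases Nat.mod_two_eq_zero_or_one k with h0 | h0
        · rw [sup_even h0, Finset.mem_singleton] at hu
          omega
        · rw [sup_odd h0 hk1] at hu
          simp only [Finset.mem_insert, Finset.mem_singleton] at hu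
          omega
    have h2 := Finset.card_le_card h1
    rw [Finset.card_erase_of_mem hNU] at h2
    have h3 : (D.erase (2 * N)).card = 3 := by
      rw [Finset.card_erase_of_mem h2N, hc]
    obtain ⟨i, hi, hi2⟩ := dep3 hN (D := D.erase (2 * N))
      (fun k hk => hb k (Finset.mem_of_mem_erase hk)) (by omega) (by omega)
    exact hT i hi (by rw [← hi2]; exact Finset.erase_subset _ _)
  · intro h1
    have hU3 : ({0, 2, N - 1} : Finset ℕ) ⊆ U := by
      intro u hu
      exact hsub 1 h1 u (by rw [sup_one]; exact hu)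
    have hcard3 : ({0, 2, N - 1} : Finset ℕ).card = 3 := by
      rw [Finset.card_insert_of_notMem, Finset.card_insert_of_notMem, Finset.card_singleton]
      · simp only [Finset.mem_singleton]; omega
      · simp only [Finset.mem_insert, Finset.mem_singleton]; omega
    have hUeq : ({0, 2, N - 1} : Finset ℕ) = U :=
      Finset.eq_of_subset_of_card_le hU3 (by omega)
    have hDsub : D ⊆ {0, 1, 4, 2 * N - 2} := by
      intro k hk
      have h2 : ∀ u ∈ sup N k, u = 0 ∨ u = 2 ∨ u = N - 1 := by
        intro u hu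
        have h3 := hsub k hk u hu
        rw [← hUeq] at h3
        simpa using h3
      simp only [Finset.mem_insert, Finset.mem_singleton]
      by_cases hk1 : k = 1
      · omega
      · rcases Nat.mod_two_eq_zero_or_one k with h0 | h0
        · rw [sup_even h0] at h2
          have a1 := h2 (k / 2) (by simp)
          omega
        · rw [sup_odd h0 hk1] at h2
          have a1 := h2 (k / 2 - 1) (by simp)
          have a2 := h2 (k / 2) (by simp)
          omega
    refine Finset.eq_of_subset_of_card_le hDsub ?_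
    rw [hc]
    exact Finset.card_le_four

theorem card_D0 {N : ℕ} (hN : 6 ≤ N) : ({0, 1, 4, 2 * N - 2} : Finset ℕ).card = 4 := by
  rw [Finset.card_insert_of_notMem, Finset.card_insert_of_notMem, Finset.card_insert_of_notMem,
    Finset.card_singleton]
  · simp only [Finset.mem_singleton]; omega
  · simp only [Finset.mem_insert, Finset.mem_singleton]; omega
  · simp only [Finset.mem_insert, Finset.mem_singleton]; omega

theorem dep_D0 {N : ℕ} (hN : 6 ≤ N) :
    ((({0, 1, 4, 2 * N - 2} : Finset ℕ)).biUnion (sup N)).card <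
      ({0, 1, 4, 2 * N - 2} : Finset ℕ).card := by
  rw [card_D0 hN]
  have h : (({0, 1, 4, 2 * N - 2} : Finset ℕ)).biUnion (sup N) ⊆ {0, 2, N - 1} := by
    intro u hu
    rw [Finset.mem_biUnion] at hu
    obtain ⟨k, hk, hu⟩ := hu
    simp only [Finset.mem_insert, Finset.mem_singleton] at hk ⊢
    rcases hk with rfl | rfl | rfl | rfl
    · rw [sup_even (by omega), Finset.mem_singleton] at hu; omega
    · rw [sup_one] at hu; simpa using hu
    · rw [sup_even (by omega), Finset.mem_singleton] at hu; omega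
    · rw [sup_even (by omega), Finset.mem_singleton] at hu; omega
  exact lt_of_le_of_lt ((Finset.card_le_card h).trans Finset.card_le_three) (by norm_num)

/-- The combinatorial core, for functions on the natural numbers. -/
theorem rigid_nat {N b : ℕ} (hN : 6 ≤ N) (hb1 : 2 * N ≤ b) (hb2 : b ≤ 2 * N + 1) (f : ℕ → ℕ)
    (hf : ∀ k, k < b → f k < b) (hinj : ∀ k l, k < b → l < b → f k = f l → k = l)
    (H : ∀ D : Finset ℕ, (∀ k ∈ D, k < b) → D.card ≤ 4 → (D.biUnion (sup N)).card < D.card →
      ∃ D' ⊆ D.image f, (D'.biUnion (sup N)).card < D'.card) :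
    ∀ k, k < b → f k = k := by
  have hinjD : ∀ D : Finset ℕ, (∀ k ∈ D, k < b) → (D.image f).card = D.card := fun D hD =>
    Finset.card_image_of_injOn fun k hk l hl h => hinj k l (hD k hk) (hD l hl) h
  have hTb : ∀ i, i + 1 < N → ∀ k ∈ T i, k < b := fun i hi k hk => by
    rw [mem_T] at hk; omega
  have hA : ∀ i, i + 1 < N → ∃ j, j + 1 < N ∧ (T i).image f = T j := by
    intro i hi
    obtain ⟨D', hD', hd⟩ := H (T i) (hTb i hi) (by rw [card_T]; norm_num) (dep_T N i)
    have h1 : D'.card ≤ 3 := by
      have := Finset.card_le_card hD'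
      rw [hinjD _ (hTb i hi), card_T] at this
      exact this
    obtain ⟨j, hj, hj2⟩ := dep3 hN (D := D') (fun k hk => by
      have := hD' hk
      rw [Finset.mem_image] at this
      obtain ⟨l, hl, rfl⟩ := this
      have := hf l (hTb i hi l hl)
      omega) h1 hd
    refine ⟨j, hj, ?_⟩
    rw [← hj2]
    refine (Finset.eq_of_subset_of_card_le hD' ?_).symm
    rw [hinjD _ (hTb i hi), card_T, hj2, card_T]
  choose! π hπ1 hπ2 using hA
  have hTπ : ∀ i, i + 1 < N → ∀ k ∈ T i, f k ∈ T (π i) := fun i hi k hk => by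
    rw [← hπ2 i hi]; exact Finset.mem_image_of_mem f hk
  have hTcover : ∀ k, k < 2 * N → k ≠ 1 → ∃ i, i + 1 < N ∧ k ∈ T i := by
    intro k hk hk1
    rcases Nat.mod_two_eq_zero_or_one k with h0 | h0
    · by_cases h : k / 2 + 1 < N
      · exact ⟨k / 2, h, by rw [mem_T]; omega⟩
      · exact ⟨N - 2, by omega, by rw [mem_T]; omega⟩
    · exact ⟨(k - 3) / 2, by omega, by rw [mem_T]; omega⟩
  -- the letters of the triangles
  set X : Finset ℕ := (Finset.range (2 * N)).erase 1 with hX
  have hXm : ∀ k, k ∈ X ↔ k ≠ 1 ∧ k < 2 * N := fun k => by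
    rw [hX, Finset.mem_erase, Finset.mem_range]
  have hfX : X.image f = X := by
    refine Finset.eq_of_subset_of_card_le ?_ ?_
    · intro m hm
      rw [Finset.mem_image] at hm
      obtain ⟨k, hk, rfl⟩ := hm
      rw [hXm] at hk
      obtain ⟨i, hi, hki⟩ := hTcover k hk.2 hk.1
      have h1 := hTπ i hi k hki
      have h2 := hπ1 i hi
      rw [mem_T] at h1
      rw [hXm]
      omega
    · rw [hinjD X fun k hk => by rw [hXm] at hk; omega]
  have hπsurj : ∀ j, j + 1 < N → ∃ i, i + 1 < N ∧ π i = j := by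
    intro j hj
    have h1 : 2 * j + 3 ∈ X.image f := by rw [hfX, hXm]; omega
    rw [Finset.mem_image] at h1
    obtain ⟨k, hk, hk2⟩ := h1
    rw [hXm] at hk
    obtain ⟨i, hi, hki⟩ := hTcover k hk.2 hk.1
    have h2 := hTπ i hi k hki
    rw [hk2, mem_T] at h2
    exact ⟨i, hi, by omega⟩
  have hπinj : ∀ i j, i + 1 < N → j + 1 < N → π i = π j → i = j := by
    intro i j hi hj h
    have h1 : (T i).image f = (T j).image f := by rw [hπ2 i hi, hπ2 j hj, h]
    have h2 : f (2 * i + 3) ∈ (T j).image f := by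
      rw [← h1]; exact Finset.mem_image_of_mem f (by rw [mem_T]; omega)
    rw [Finset.mem_image] at h2
    obtain ⟨k, hk, hk2⟩ := h2
    have h3 := hinj k (2 * i + 3) (hTb j hj k hk) (by omega) hk2
    rw [mem_T] at hk
    omega
  have hf1X : f 1 ∉ X := by
    intro h
    rw [← hfX, Finset.mem_image] at h
    obtain ⟨k, hk, hk2⟩ := h
    rw [hXm] at hk
    exact hk.1 (hinj k 1 (by omega) (by omega) hk2)
  -- the four letters
  set D0 : Finset ℕ := {0, 1, 4, 2 * N - 2} with hD0
  have hD0m : ∀ k, k ∈ D0 ↔ k = 0 ∨ k = 1 ∨ k = 4 ∨ k = 2 * N - 2 := fun k => by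
    rw [hD0]; simp
  have hD0b : ∀ k ∈ D0, k < b := fun k hk => by rw [hD0m] at hk; omega
  have hnoT : ∀ j, j + 1 < N → ¬ T j ⊆ D0.image f := by
    intro j hj hsub
    obtain ⟨i, hi, rfl⟩ := hπsurj j hj
    have h1 : f (2 * i + 3) ∈ D0.image f := hsub (hTπ i hi _ (by rw [mem_T]; omega))
    rw [Finset.mem_image] at h1
    obtain ⟨k, hk, hk2⟩ := h1
    have h3 := hinj k (2 * i + 3) (hD0b k hk) (by omega) hk2
    rw [hD0m] at hk
    omega
  obtain ⟨D', hD', hd⟩ := H D0 hD0b (by rw [hD0, card_D0 hN]) (dep_D0 hN)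
  have hD'b : ∀ k ∈ D', k < 2 * N + 1 := fun k hk => by
    have := hD' hk
    rw [Finset.mem_image] at this
    obtain ⟨l, hl, rfl⟩ := this
    have := hf l (hD0b l hl)
    omega
  have hD'4 : D'.card = 4 := by
    have h1 := Finset.card_le_card hD'
    rw [hinjD _ hD0b, hD0, card_D0 hN] at h1
    by_contra hne
    obtain ⟨j, hj, hj2⟩ := dep3 hN hD'b (by omega) hd
    exact hnoT j hj (by rw [← hj2]; exact hD')
  have hD'eq : D' = D0.image f := Finset.eq_of_subset_of_card_le hD' (by
    rw [hinjD _ hD0b, hD'4, hD0, card_D0 hN])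
  obtain ⟨h2N, h1D⟩ := dep4 hN hD'b hD'4 hd (fun i hi hsub => hnoT i hi (hsub.trans hD'))
  have hf1D : f 1 ∈ D' := by
    rw [hD'eq]; exact Finset.mem_image_of_mem f (by rw [hD0m]; omega)
  have hf1 : f 1 = 1 := by
    have h1 := hf 1 (by omega)
    have h2 : f 1 ≠ 2 * N := fun h => h2N (by rw [← h]; exact hf1D)
    by_contra hne
    exact hf1X ((hXm _).2 ⟨hne, by omega⟩)
  have hD'D0 := h1D (by rw [← hf1]; exact hf1D)
  have hfD0 : ∀ k ∈ D0, k ≠ 1 → f k = 0 ∨ f k = 4 ∨ f k = 2 * N - 2 := by
    intro k hk hk1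
    have h1 : f k ∈ D' := by rw [hD'eq]; exact Finset.mem_image_of_mem f hk
    rw [hD'D0] at h1
    have h2 : f k ≠ 1 := fun h => hk1 (hinj k 1 (hD0b k hk) (by omega) (by rw [h, hf1]))
    simp only [Finset.mem_insert, Finset.mem_singleton] at h1
    omega
  have hf4 : f 4 = 4 := by
    have h1 := hfD0 4 (by rw [hD0m]; omega) (by omega)
    have h2 := hTπ 1 (by omega) 4 (by rw [mem_T]; omega)
    have h3 := hTπ 2 (by omega) 4 (by rw [mem_T]; omega)
    have h4 := hπ1 1 (by omega)
    have h5 := hπ1 2 (by omega)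
    have h6 : π 1 ≠ π 2 := fun h => by have := hπinj 1 2 (by omega) (by omega) h; omega
    rw [mem_T] at h2 h3
    omega
  have hf0 : f 0 = 0 := by
    have h1 := hfD0 0 (by rw [hD0m]; omega) (by omega)
    have h2 : f 0 ≠ 4 := fun h => by
      have := hinj 0 4 (by omega) (by omega) (by rw [h, hf4]); omega
    have h3 := hTπ 0 (by omega) 0 (by rw [mem_T]; omega)
    have h4 := hTπ 0 (by omega) 2 (by rw [mem_T]; omega)
    have h5 := hTπ 1 (by omega) 2 (by rw [mem_T]; omega)
    have h6 := hTπ 1 (by omega) 4 (by rw [mem_T]; omega)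
    have h7 := hπ1 0 (by omega)
    rw [mem_T] at h3 h4 h5 h6
    rw [hf4] at h6
    omega
  have hfE : f (2 * N - 2) = 2 * N - 2 := by
    have h1 := hfD0 (2 * N - 2) (by rw [hD0m]; omega) (by omega)
    have h2 : f (2 * N - 2) ≠ 4 := fun h => by
      have := hinj (2 * N - 2) 4 (by omega) (by omega) (by rw [h, hf4]); omega
    have h3 : f (2 * N - 2) ≠ 0 := fun h => by
      have := hinj (2 * N - 2) 0 (by omega) (by omega) (by rw [h, hf0]); omega
    omega
  -- induction along the path
  have hind : ∀ i, i + 1 < N → π i = i ∧ f (2 * i) = 2 * i := by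
    intro i
    induction i with
    | zero =>
      intro hi
      have h3 := hTπ 0 (by omega) 0 (by rw [mem_T]; omega)
      rw [mem_T, hf0] at h3
      exact ⟨by omega, by rw [mul_zero]; exact hf0⟩
    | succ i ih =>
      intro hi
      obtain ⟨h1, h2⟩ := ih (by omega)
      have h3 := hTπ i (by omega) (2 * i + 2) (by rw [mem_T]; omega)
      have h4 := hTπ (i + 1) (by omega) (2 * i + 2) (by rw [mem_T]; omega)
      have h5 : π (i + 1) ≠ i := fun h => by
        have := hπinj (i + 1) i (by omega) (by omega) (by rw [h, h1]); omega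
      have h6 : f (2 * i + 2) ≠ 2 * i := fun h => by
        have := hinj (2 * i + 2) (2 * i) (by omega) (by omega) (by rw [h, h2]); omega
      rw [h1, mem_T] at h3
      rw [mem_T] at h4
      have e : 2 * (i + 1) = 2 * i + 2 := by ring
      rw [e]
      omega
  have heven : ∀ i, i < N → f (2 * i) = 2 * i := by
    intro i hi
    by_cases h : i + 1 < N
    · exact (hind i h).2
    · have e : 2 * i = 2 * N - 2 := by omega
      rw [e, hfE]
  have hodd : ∀ i, i + 1 < N → f (2 * i + 3) = 2 * i + 3 := by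
    intro i hi
    have h1 := hTπ i hi (2 * i + 3) (by rw [mem_T]; omega)
    rw [(hind i hi).1, mem_T] at h1
    have h2 : f (2 * i + 3) ≠ 2 * i := fun h => by
      have := hinj (2 * i + 3) (2 * i) (by omega) (by omega) (by rw [h, heven i (by omega)])
      omega
    have h3 : f (2 * i + 3) ≠ 2 * i + 2 := fun h => by
      have := hinj (2 * i + 3) (2 * (i + 1)) (by omega) (by omega)
        (by rw [h, heven (i + 1) hi]; ring)
      omega
    omega
  have hlow : ∀ k, k < 2 * N → f k = k := by
    intro k hk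
    rcases Nat.mod_two_eq_zero_or_one k with h0 | h0
    · have h1 := heven (k / 2) (by omega)
      have e : 2 * (k / 2) = k := by omega
      rwa [e] at h1
    · by_cases hk1 : k = 1
      · rw [hk1, hf1]
      · have h1 := hodd ((k - 3) / 2) (by omega)
        have e : 2 * ((k - 3) / 2) + 3 = k := by omega
        rwa [e] at h1
  intro k hk
  by_cases h : k < 2 * N
  · exact hlow k h
  · have h1 := hf k hk
    by_contra hne
    have h2 : f k < 2 * N := by omega
    have h3 := hlow (f k) h2
    have h4 := hinj (f k) k (by omega) hk h3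
    exact hne h4

/-- **(R1)**. -/
theorem rigid_stmt : RigidStmt := by
  intro N b hN hb1 hb2 φ H
  let f : ℕ → ℕ := fun k => if h : k < b then (φ ⟨k, h⟩ : ℕ) else k
  have hfφ : ∀ k : Fin b, f k = φ k := fun k => by
    show (if h : (k : ℕ) < b then (φ ⟨k, h⟩ : ℕ) else k) = φ k
    rw [dif_pos k.2]
  have key := rigid_nat hN hb1 hb2 f (fun k hk => by
      rw [show f k = φ ⟨k, hk⟩ from hfφ ⟨k, hk⟩]; exact (φ ⟨k, hk⟩).2)
    (fun k l hk hl h => by
      rw [show f k = φ ⟨k, hk⟩ from hfφ ⟨k, hk⟩, show f l = φ ⟨l, hl⟩ from hfφ ⟨l, hl⟩] at h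
      have h1 := φ.injective (Fin.ext h)
      exact congrArg Fin.val h1)
    (fun D hD hc hd => by
      classical
      -- transport to `Fin b`
      let E : Finset (Fin b) := D.attach.image fun k => ⟨k.1, hD k.1 k.2⟩
      have hE : E.map Fin.valEmbedding = D := by
        ext k
        simp only [Finset.mem_map, Fin.valEmbedding_apply]
        constructor
        · rintro ⟨x, hx, rfl⟩
          obtain ⟨y, -, hy⟩ := Finset.mem_image.1 hx
          rw [← hy]; exact y.2
        · intro hk
          exact ⟨⟨k, hD k hk⟩, Finset.mem_image.2 ⟨⟨k, hk⟩, Finset.mem_attach _ _, rfl⟩, rfl⟩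
      have hEc : E.card = D.card := by rw [← hE, Finset.card_map]
      have hbi : ∀ A : Finset (Fin b), (A.biUnion fun k => sup N k) =
          (A.map Fin.valEmbedding).biUnion (sup N) := by
        intro A
        ext u
        simp only [Finset.mem_biUnion, Finset.mem_map, Fin.valEmbedding_apply]
        constructor
        · rintro ⟨k, hk, hu⟩; exact ⟨k, ⟨k, hk, rfl⟩, hu⟩
        · rintro ⟨_, ⟨k, hk, rfl⟩, hu⟩; exact ⟨k, hk, hu⟩
      obtain ⟨D', hD', hd'⟩ := H E (by rw [hEc]; exact hc) (by rw [hbi, hE, hEc]; exact hd)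
      refine ⟨D'.map Fin.valEmbedding, ?_, by rw [← hbi, Finset.card_map]; exact hd'⟩
      intro m hm
      simp only [Finset.mem_map, Fin.valEmbedding_apply] at hm
      obtain ⟨x, hx, rfl⟩ := hm
      have h1 := hD' hx
      rw [Finset.mem_map] at h1
      obtain ⟨y, hy, hyx⟩ := h1
      rw [Finset.mem_image]
      refine ⟨y, ?_, ?_⟩
      · rw [← hE]
        exact Finset.mem_map.2 ⟨y, hy, rfl⟩
      · rw [hfφ, ← hyx]; rfl)
  ext k
  have h1 := key k k.2
  rw [hfφ] at h1
  rw [h1]; rfl

end Vale.Agent.P181.H355
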